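import Mathlib

/-! P054: counting solutions of `a · b = 0` in a box, dimension three -/

namespace VP054

open Finset

theorem card_class {T k : ℕ} (hk : 1 ≤ k) (hkT : k ≤ T) (S : Finset ℤ)
    (hS : ∀ x ∈ S, -(T : ℤ) ≤ x ∧ x ≤ T) (hd : ∀ x ∈ S, ∀ y ∈ S, (k : ℤ) ∣ x - y) :
    k * S.card ≤ 4 * T := by
  have hk0 : (0 : ℤ) < k := by exact_mod_cast hk
  have hinj : Set.InjOn (fun x : ℤ => x / (k : ℤ)) S := by
    intro x hx y hy h
    simp only at h
    have h1 : x % (k : ℤ) = y % (k : ℤ) := Int.emod_eq_emod_iff_emod_sub_eq_zero.mpr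
      (Int.emod_eq_zero_of_dvd (hd x hx y hy))
    rw [← Int.mul_ediv_add_emod x k, ← Int.mul_ediv_add_emod y k, h, h1]
  have hsub : S.image (fun x : ℤ => x / (k : ℤ)) ⊆ Icc ((-(T : ℤ)) / k) ((T : ℤ) / k) := by
    intro z hz
    rw [mem_image] at hz
    obtain ⟨x, hx, rfl⟩ := hz
    rw [mem_Icc]
    exact ⟨Int.ediv_le_ediv hk0 (hS x hx).1, Int.ediv_le_ediv hk0 (hS x hx).2⟩
  have hc := card_le_card hsub
  rw [card_image_of_injOn hinj, Int.card_Icc] at hc
  have h1 : (k : ℤ) * ((T : ℤ) / k) ≤ T := Int.mul_ediv_self_le hk0.ne'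
  have h2 : -(T : ℤ) < (k : ℤ) * ((-(T : ℤ)) / k) + k := Int.lt_mul_ediv_self_add hk0
  have h0 : (-(T : ℤ)) / k ≤ (T : ℤ) / k := Int.ediv_le_ediv hk0 (by omega)
  have h3 : (S.card : ℤ) ≤ (T : ℤ) / k + 1 - (-(T : ℤ)) / k := by
    have : ((((T : ℤ) / k + 1 - (-(T : ℤ)) / k).toNat : ℕ) : ℤ) =
        (T : ℤ) / k + 1 - (-(T : ℤ)) / k := Int.toNat_of_nonneg (by linarith)
    rw [← this]
    exact_mod_cast hc
  have h4 : (k : ℤ) * S.card ≤ k * ((T : ℤ) / k + 1 - (-(T : ℤ)) / k) :=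
    mul_le_mul_of_nonneg_left h3 hk0.le
  have hkT' : (k : ℤ) ≤ T := by exact_mod_cast hkT
  have h5 : (k : ℤ) * S.card ≤ 4 * T := by nlinarith
  exact_mod_cast h5

/-- pairs `(b₁, b₂)` in the box with `z ∣ x b₁ + y b₂` -/
noncomputable def W (T : ℕ) (x y z : ℤ) : Finset (ℤ × ℤ) :=
  ((Icc (-(T : ℤ)) T) ×ˢ (Icc (-(T : ℤ)) T)).filter (fun b => z ∣ x * b.1 + y * b.2)

theorem card_W {T : ℕ} {x y z : ℤ} (hz : z ≠ 0) (hzT : z.natAbs ≤ T) :
    z.natAbs * (W T x y z).card ≤ 16 * T ^ 2 * Int.gcd x (Int.gcd y z) := by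
  obtain ⟨h, hh⟩ : ∃ h : ℕ, h = Int.gcd y z := ⟨_, rfl⟩
  obtain ⟨g, hg⟩ : ∃ g : ℕ, g = Int.gcd x h := ⟨_, rfl⟩
  rw [← hh, ← hg]
  have hz0 : 0 < z.natAbs := Int.natAbs_pos.mpr hz
  have hhz : h ∣ z.natAbs := by rw [hh]; exact Int.gcd_dvd_natAbs_right _ _
  have hh0 : 0 < h := Nat.pos_of_dvd_of_pos hhz hz0
  have hgh : g ∣ h := by
    rw [hg]; have := Int.gcd_dvd_natAbs_right x (h : ℤ); simpa using this
  have hg0 : 0 < g := Nat.pos_of_dvd_of_pos hgh hh0
  obtain ⟨k1, hk1⟩ := hgh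
  obtain ⟨k2, hk2⟩ := hhz
  have hk10 : 0 < k1 := Nat.pos_of_ne_zero (by rintro rfl; omega)
  have hk20 : 0 < k2 := Nat.pos_of_ne_zero (by rintro rfl; omega)
  have hhT : h ≤ T := (Nat.le_of_dvd hz0 ⟨k2, hk2⟩).trans hzT
  have hk1T : k1 ≤ T := (Nat.le_of_dvd hh0 ⟨g, by rw [hk1]; ring⟩).trans hhT
  have hk2T : k2 ≤ T := (Nat.le_of_dvd hz0 ⟨h, by rw [hk2]; ring⟩).trans hzT
  -- first coordinates
  have hb1 : ∀ b ∈ W T x y z, (k1 : ℤ) ∣ b.1 := by
    intro b hb
    rw [W, mem_filter] at hb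
    have e1 : (h : ℤ) ∣ z := by rw [hh]; exact Int.gcd_dvd_right _ _
    have e2 : (h : ℤ) ∣ y := by rw [hh]; exact Int.gcd_dvd_left _ _
    have e3 : (h : ℤ) ∣ x * b.1 := by
      have := e1.trans hb.2
      exact (Int.dvd_add_left (Dvd.dvd.mul_right e2 _)).mp this
    have e4 : (h : ℤ) ∣ (g : ℤ) * b.1 := by
      have : (h : ℤ) ∣ (Int.gcd x h : ℤ) * b.1 := by
        rw [Int.gcd_eq_gcd_ab, add_mul]
        refine dvd_add ?_ ?_
        · rw [mul_right_comm]
          exact Dvd.dvd.mul_right e3 _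
        · rw [mul_assoc]
          exact dvd_mul_right _ _
      rw [hg]; exact this
    rw [hk1] at e4
    push_cast at e4
    exact Int.dvd_of_mul_dvd_mul_left (by exact_mod_cast hg0.ne') e4
  have hS1 : k1 * ((W T x y z).image Prod.fst).card ≤ 4 * T := by
    refine card_class hk10 hk1T _ ?_ ?_
    · intro c hc
      rw [mem_image] at hc
      obtain ⟨b, hb, rfl⟩ := hc
      rw [W, mem_filter, mem_product, mem_Icc] at hb
      exact hb.1.1
    · intro c hc c' hc'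
      rw [mem_image] at hc hc'
      obtain ⟨b, hb, rfl⟩ := hc
      obtain ⟨b', hb', rfl⟩ := hc'
      exact dvd_sub (hb1 b hb) (hb1 b' hb')
  have hfib : ∀ c ∈ (W T x y z).image Prod.fst,
      k2 * ((W T x y z).filter (fun b => b.1 = c)).card ≤ 4 * T := by
    intro c _
    have hinj : Set.InjOn Prod.snd (((W T x y z).filter (fun b => b.1 = c) : Finset (ℤ × ℤ)) :
        Set (ℤ × ℤ)) := by
      intro b hb b' hb' h
      rw [mem_coe, mem_filter] at hb hb'
      exact Prod.ext (hb.2.trans hb'.2.symm) h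
    rw [← card_image_of_injOn hinj]
    refine card_class hk20 hk2T _ ?_ ?_
    · intro e he
      rw [mem_image] at he
      obtain ⟨b, hb, rfl⟩ := he
      rw [mem_filter, W, mem_filter, mem_product, mem_Icc, mem_Icc] at hb
      exact hb.1.1.2
    · intro e he e' he'
      rw [mem_image] at he he'
      obtain ⟨b, hb, rfl⟩ := he
      obtain ⟨b', hb', rfl⟩ := he'
      rw [mem_filter, W, mem_filter] at hb hb'
      have e1 : z ∣ y * (b.2 - b'.2) := by
        have := dvd_sub hb.1.2 hb'.1.2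
        rw [hb.2, hb'.2] at this
        have e : x * c + y * b.2 - (x * c + y * b'.2) = y * (b.2 - b'.2) := by ring
        rwa [e] at this
      have e2 : z ∣ (h : ℤ) * (b.2 - b'.2) := by
        rw [hh, Int.gcd_eq_gcd_ab, add_mul]
        refine dvd_add ?_ ?_
        · rw [mul_right_comm]
          exact Dvd.dvd.mul_right e1 _
        · rw [mul_assoc]
          exact dvd_mul_right _ _
      have e3 : ((z.natAbs : ℕ) : ℤ) ∣ (h : ℤ) * (b.2 - b'.2) := Int.natAbs_dvd.mpr e2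
      rw [hk2] at e3
      push_cast at e3
      exact Int.dvd_of_mul_dvd_mul_left (by exact_mod_cast hh0.ne') e3
  have hcard : (W T x y z).card =
      ∑ c ∈ (W T x y z).image Prod.fst, ((W T x y z).filter (fun b => b.1 = c)).card :=
    card_eq_sum_card_image Prod.fst (W T x y z)
  have h1 : k2 * (W T x y z).card ≤ ((W T x y z).image Prod.fst).card * (4 * T) := by
    rw [hcard, mul_sum]
    refine (sum_le_sum hfib).trans ?_
    rw [sum_const, smul_eq_mul]
  calc z.natAbs * (W T x y z).card = g * (k1 * (k2 * (W T x y z).card)) := by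
        rw [hk2, hk1]; ring
    _ ≤ g * (k1 * (((W T x y z).image Prod.fst).card * (4 * T))) := by gcongr
    _ = g * ((k1 * ((W T x y z).image Prod.fst).card) * (4 * T)) := by ring
    _ ≤ g * ((4 * T) * (4 * T)) := by gcongr
    _ = 16 * T ^ 2 * g := by ring

/-- triples `b` in the box with `x b₁ + y b₂ + z b₃ = 0` -/
noncomputable def U (T : ℕ) (x y z : ℤ) : ℕ :=
  (((Icc (-(T : ℤ)) T) ×ˢ (Icc (-(T : ℤ)) T) ×ˢ (Icc (-(T : ℤ)) T)).filter
    (fun b => x * b.1 + y * b.2.1 + z * b.2.2 = 0)).card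

theorem U_le_W {T : ℕ} {x y z : ℤ} (hz : z ≠ 0) : U T x y z ≤ (W T x y z).card := by
  unfold U
  refine card_le_card_of_injOn (fun b => (b.1, b.2.1)) ?_ ?_
  · intro b hb
    rw [mem_coe, mem_filter, mem_product, mem_product] at hb
    rw [mem_coe, W, mem_filter, mem_product]
    refine ⟨⟨hb.1.1, hb.1.2.1⟩, ⟨-b.2.2, ?_⟩⟩
    simp only
    linarith [hb.2]
  · intro b hb b' hb' h
    rw [mem_coe, mem_filter] at hb hb'
    simp only [Prod.mk.injEq] at h
    have h3 : z * b.2.2 = z * b'.2.2 := by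
      have := hb.2
      have := hb'.2
      rw [h.1, h.2] at *
      linarith
    exact Prod.ext h.1 (Prod.ext h.2 (mul_left_cancel₀ hz h3))

end VP054
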