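import Mathlib

/-! P054: counting solutions of a congruence in a box -/

namespace VP054

open Finset

theorem counta_res (T : ℕ) (q : ℤ) (hq : 0 < q) (b0 : ℤ) :
    (((Icc (-T : ℤ) T).filter (fun b => q ∣ b - b0)).card : ℤ) * q ≤ 2 * T + q := by
  have h : ((Icc (-T : ℤ) T).filter (fun b => q ∣ b - b0)).card ≤
      (Icc (0 : ℤ) ((2 * T) / q)).card := by
    refine card_le_card_of_injOn (fun b => (b + T) / q) ?_ ?_
    · intro b hb
      rw [mem_coe, mem_filter, mem_Icc] at hb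
      rw [mem_coe, mem_Icc]
      refine ⟨Int.ediv_nonneg (by linarith [hb.1.1]) hq.le, ?_⟩
      exact Int.ediv_le_ediv hq (by linarith [hb.1.2])
    · intro b hb b' hb' hbb
      rw [mem_coe, mem_filter, mem_Icc] at hb hb'
      obtain ⟨t, ht⟩ : q ∣ b - b' := by
        have := dvd_sub hb.2 hb'.2
        rwa [sub_sub_sub_cancel_right] at this
      have e : b + T = (b' + T) + q * t := by linarith
      simp only at hbb
      rw [e, Int.add_mul_ediv_left _ _ hq.ne'] at hbb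
      have ht0 : t = 0 := by linarith
      rw [ht0, mul_zero] at ht
      linarith
  rw [Int.card_Icc] at h
  have h0 : 0 ≤ (2 * (T : ℤ)) / q := Int.ediv_nonneg (by positivity) hq.le
  have h1 : (((Icc (-T : ℤ) T).filter (fun b => q ∣ b - b0)).card : ℤ) ≤ (2 * (T : ℤ)) / q + 1 := by
    have : (((2 * (T : ℤ)) / q + 1 - 0).toNat : ℤ) = (2 * (T : ℤ)) / q + 1 := by
      rw [Int.toNat_of_nonneg (by linarith)]; ring
    have h2 : (((Icc (-T : ℤ) T).filter (fun b => q ∣ b - b0)).card : ℤ) ≤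
        (((2 * (T : ℤ)) / q + 1 - 0).toNat : ℤ) := by exact_mod_cast h
    linarith
  have h3 := mul_le_mul_of_nonneg_right h1 hq.le
  have h4 : (2 * (T : ℤ)) / q * q ≤ 2 * T := Int.ediv_mul_le _ hq.ne'
  linarith

/-- residue class count: at most `3 T h / m` integers `b` in `[-T, T]` with `m ∣ k - a b`,
where `h = gcd a m` and `1 ≤ m ≤ T` -/
theorem count_one (T m : ℕ) (hm : 1 ≤ m) (hmT : m ≤ T) (a k : ℤ) :
    ((Icc (-T : ℤ) T).filter (fun b => (m : ℤ) ∣ k - a * b)).card * m ≤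
      3 * T * (Int.gcd a m) := by
  rcases ((Icc (-T : ℤ) T).filter (fun b => (m : ℤ) ∣ k - a * b)).eq_empty_or_nonempty with h | h
  · rw [h]; simp
  · obtain ⟨b0, hb0⟩ := h
    rw [mem_filter] at hb0
    have hg : 0 < Int.gcd a m := by
      apply Int.gcd_pos_of_ne_zero_right
      exact_mod_cast (by omega : m ≠ 0)
    obtain ⟨q, hq⟩ : Int.gcd a m ∣ m := by
      have := Int.gcd_dvd_right a (m : ℤ)
      exact_mod_cast this
    obtain ⟨a', ha'⟩ := Int.gcd_dvd_left a (m : ℤ)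
    have hq0 : 0 < q := by
      rcases Nat.eq_zero_or_pos q with h0 | h0
      · rw [h0, mul_zero] at hq; omega
      · exact h0
    have hgZ : ((Int.gcd a m : ℕ) : ℤ) ≠ 0 := by exact_mod_cast hg.ne'
    have hcop : Int.gcd (q : ℤ) a' = 1 := by
      have h1 := Int.gcd_div_gcd_div_gcd hg
      have e1 : a / ((Int.gcd a m : ℕ) : ℤ) = a' := Int.ediv_eq_of_eq_mul_right hgZ ha'
      have e2 : (m : ℤ) / ((Int.gcd a m : ℕ) : ℤ) = q := by
        have : (m : ℤ) = ((Int.gcd a m : ℕ) : ℤ) * q := by exact_mod_cast hq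
        exact Int.ediv_eq_of_eq_mul_right hgZ this
      rw [e1, e2] at h1
      rw [Int.gcd_comm]
      exact h1
    have hsub : (Icc (-T : ℤ) T).filter (fun b => (m : ℤ) ∣ k - a * b) ⊆
        (Icc (-T : ℤ) T).filter (fun b => (q : ℤ) ∣ b - b0) := by
      intro b hb
      rw [mem_filter] at hb ⊢
      refine ⟨hb.1, ?_⟩
      have h1 : (m : ℤ) ∣ a * (b - b0) := by
        have := dvd_sub hb0.2 hb.2
        have e : k - a * b0 - (k - a * b) = a * (b - b0) := by ring
        rwa [e] at this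
      have h2 : ((Int.gcd a m : ℕ) : ℤ) * q ∣ ((Int.gcd a m : ℕ) : ℤ) * (a' * (b - b0)) := by
        have e1 : ((Int.gcd a m : ℕ) : ℤ) * q = m := by exact_mod_cast hq.symm
        have e2 : ((Int.gcd a m : ℕ) : ℤ) * (a' * (b - b0)) = a * (b - b0) := by
          rw [← mul_assoc, ← ha']
        rw [e1, e2]
        exact h1
      have h3 := Int.dvd_of_mul_dvd_mul_left hgZ h2
      exact Int.dvd_of_dvd_mul_right_of_gcd_one h3 hcop
    have hc := card_le_card hsub
    have hr := counta_res T q (by exact_mod_cast hq0) b0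
    have hr' : ((Icc (-T : ℤ) T).filter (fun b => (q : ℤ) ∣ b - b0)).card * q ≤ 2 * T + q := by
      exact_mod_cast hr
    have hqm : q ≤ m := Nat.le_of_dvd (by omega) (Dvd.intro_left _ hq.symm)
    calc ((Icc (-T : ℤ) T).filter (fun b => (m : ℤ) ∣ k - a * b)).card * m
        ≤ ((Icc (-T : ℤ) T).filter (fun b => (q : ℤ) ∣ b - b0)).card * m :=
          Nat.mul_le_mul_right _ hc
      _ = (((Icc (-T : ℤ) T).filter (fun b => (q : ℤ) ∣ b - b0)).card * q) * Int.gcd a m := by
          rw [mul_assoc, mul_comm q, ← hq]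
      _ ≤ (3 * T) * Int.gcd a m := Nat.mul_le_mul_right _ (by omega)

/-- at most `9 T^2 g / m` pairs `(b, c)` in the box with `m ∣ k - a b - a' c`, `g = gcd(a, a', m)` -/
theorem count_two (T m : ℕ) (hm : 1 ≤ m) (hmT : m ≤ T) (a a' k : ℤ) :
    ((Icc (-T : ℤ) T ×ˢ Icc (-T : ℤ) T).filter
      (fun b => (m : ℤ) ∣ k - a * b.1 - a' * b.2)).card * m ≤
      9 * T ^ 2 * (Nat.gcd (Int.gcd a m) (Int.gcd a' m)) := by
  have hg : 0 < Int.gcd a' m := by
    apply Int.gcd_pos_of_ne_zero_right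
    exact_mod_cast (by omega : m ≠ 0)
  have hgm : Int.gcd a' m ∣ m := by
    have := Int.gcd_dvd_right a' (m : ℤ)
    exact_mod_cast this
  have hgT : Int.gcd a' m ≤ T := (Nat.le_of_dvd (by omega) hgm).trans hmT
  have e0 : Nat.gcd (Int.gcd a m) (Int.gcd a' m) = Int.gcd a ((Int.gcd a' m : ℕ) : ℤ) := by
    unfold Int.gcd
    simp only [Int.natAbs_natCast]
    rw [Nat.gcd_assoc, Nat.gcd_eq_right (Nat.gcd_dvd_right a'.natAbs m)]
  rw [e0, card_filter, sum_product, sum_mul]
  have h1 : ∀ b ∈ Icc (-T : ℤ) T,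
      (∑ c ∈ Icc (-T : ℤ) T, if (m : ℤ) ∣ k - a * b - a' * c then 1 else 0) * m ≤
        if ((Int.gcd a' m : ℕ) : ℤ) ∣ k - a * b then 3 * T * Int.gcd a' m else 0 := by
    intro b _
    rw [← card_filter]
    split_ifs with hd
    · exact count_one T m hm hmT a' (k - a * b)
    · rw [filter_false_of_mem]
      · simp
      · intro c _ hc
        apply hd
        have h2 : ((Int.gcd a' m : ℕ) : ℤ) ∣ k - a * b - a' * c :=
          (Int.gcd_dvd_right a' (m : ℤ)).trans hc
        have h3 : ((Int.gcd a' m : ℕ) : ℤ) ∣ a' * c :=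
          (Int.gcd_dvd_left a' (m : ℤ)).mul_right c
        have := dvd_add h2 h3
        rwa [sub_add_cancel] at this
  refine (sum_le_sum h1).trans ?_
  rw [← sum_filter, sum_const, smul_eq_mul]
  have h2 := count_one T (Int.gcd a' m) hg hgT a k
  calc ((Icc (-T : ℤ) T).filter (fun b => ((Int.gcd a' m : ℕ) : ℤ) ∣ k - a * b)).card *
        (3 * T * Int.gcd a' m)
      = (3 * T) * (((Icc (-T : ℤ) T).filter
          (fun b => ((Int.gcd a' m : ℕ) : ℤ) ∣ k - a * b)).card * Int.gcd a' m) := by ring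
    _ ≤ (3 * T) * (3 * T * Int.gcd a ((Int.gcd a' m : ℕ) : ℤ)) := Nat.mul_le_mul_left _ h2
    _ = 9 * T ^ 2 * Int.gcd a ((Int.gcd a' m : ℕ) : ℤ) := by ring

end VP054
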