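import Mathlib

/-! P054: averages of greatest common divisors -/

namespace VP054

open Finset

theorem gB_gcd_le (m : ℕ) (hm : 1 ≤ m) (a a' : ℤ) :
    ((Nat.gcd (Int.gcd a m) (Int.gcd a' m) : ℕ) : ℝ) ≤
      ∑ g ∈ m.divisors, (g : ℝ) * ((if (g : ℤ) ∣ a then (1 : ℝ) else 0) *
        (if (g : ℤ) ∣ a' then (1 : ℝ) else 0)) := by
  set d := Nat.gcd (Int.gcd a m) (Int.gcd a' m) with hd
  have h1 : d ∣ Int.gcd a m := Nat.gcd_dvd_left _ _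
  have h2 : d ∣ Int.gcd a' m := Nat.gcd_dvd_right _ _
  have h1' : (d : ℤ) ∣ (Int.gcd a m : ℤ) := Int.natCast_dvd_natCast.2 h1
  have h2' : (d : ℤ) ∣ (Int.gcd a' m : ℤ) := Int.natCast_dvd_natCast.2 h2
  have hda : (d : ℤ) ∣ a := h1'.trans (Int.gcd_dvd_left _ _)
  have hda' : (d : ℤ) ∣ a' := h2'.trans (Int.gcd_dvd_left _ _)
  have hdm : (d : ℤ) ∣ (m : ℤ) := h1'.trans (Int.gcd_dvd_right _ _)
  have hdm' : d ∣ m := Int.natCast_dvd_natCast.1 hdm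
  have hmem : d ∈ m.divisors := Nat.mem_divisors.2 ⟨hdm', by omega⟩
  have hs := Finset.single_le_sum (s := m.divisors)
    (f := fun g : ℕ => (g : ℝ) * ((if (g : ℤ) ∣ a then (1 : ℝ) else 0) *
        (if (g : ℤ) ∣ a' then (1 : ℝ) else 0))) (fun g _ => by positivity) hmem
  simp only [hda, hda', if_true, mul_one] at hs
  exact hs

theorem gB_ind_sum (m g : ℕ) (hm : 1 ≤ m) (hg : g ∣ m) :
    ∑ a ∈ Icc (-m : ℤ) m, (if (g : ℤ) ∣ a then (1 : ℝ) else 0) ≤ 3 * ((m : ℝ) / g) := by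
  obtain ⟨j, rfl⟩ := hg
  have hg0 : 0 < g := by
    rcases Nat.eq_zero_or_pos g with h | h
    · subst h; simp at hm
    · exact h
  have hj0 : 1 ≤ j := by
    rcases Nat.eq_zero_or_pos j with h | h
    · subst h; simp at hm
    · exact h
  rw [← Finset.sum_filter, Finset.sum_const, nsmul_eq_mul, mul_one]
  have hsub : (Icc (-((g * j : ℕ) : ℤ)) ((g * j : ℕ) : ℤ)).filter (fun a => (g : ℤ) ∣ a) ⊆
      (Icc (-(j : ℤ)) (j : ℤ)).image (fun b => (g : ℤ) * b) := by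
    intro a ha
    rw [Finset.mem_filter, Finset.mem_Icc] at ha
    obtain ⟨⟨h1, h2⟩, b, rfl⟩ := ha
    rw [Finset.mem_image]
    refine ⟨b, ?_, rfl⟩
    rw [Finset.mem_Icc]
    push_cast at h1 h2
    have hgz : (0 : ℤ) < g := by exact_mod_cast hg0
    constructor
    · have : (g : ℤ) * (-(j : ℤ)) ≤ g * b := by linarith
      exact le_of_mul_le_mul_left this hgz
    · exact le_of_mul_le_mul_left h2 hgz
  have hcard := (Finset.card_le_card hsub).trans Finset.card_image_le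
  rw [Int.card_Icc] at hcard
  have hc2 : ((j : ℤ) + 1 - -(j : ℤ)).toNat = 2 * j + 1 := by omega
  rw [hc2] at hcard
  have hR : (((Icc (-((g * j : ℕ) : ℤ)) ((g * j : ℕ) : ℤ)).filter
      (fun a => (g : ℤ) ∣ a)).card : ℝ) ≤ 2 * j + 1 := by exact_mod_cast hcard
  have hgR : (0 : ℝ) < g := by exact_mod_cast hg0
  have hjR : (1 : ℝ) ≤ j := by exact_mod_cast hj0
  have e : (((g * j : ℕ) : ℝ)) / g = j := by
    push_cast
    field_simp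
  rw [e]
  linarith

theorem gB_inner (m : ℕ) (hm : 1 ≤ m) :
    (∑ a ∈ Icc (-m : ℤ) m, ∑ a' ∈ Icc (-m : ℤ) m,
      (Nat.gcd (Int.gcd a m) (Int.gcd a' m) : ℝ)) / (m : ℝ) ≤
      9 * ∑ g ∈ m.divisors, (m : ℝ) / g := by
  have hmR : (0 : ℝ) < m := by exact_mod_cast hm
  rw [div_le_iff₀ hmR]
  have h1 : ∑ a ∈ Icc (-m : ℤ) m, ∑ a' ∈ Icc (-m : ℤ) m,
      (Nat.gcd (Int.gcd a m) (Int.gcd a' m) : ℝ) ≤
      ∑ a ∈ Icc (-m : ℤ) m, ∑ a' ∈ Icc (-m : ℤ) m,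
      ∑ g ∈ m.divisors, (g : ℝ) * ((if (g : ℤ) ∣ a then (1 : ℝ) else 0) *
        (if (g : ℤ) ∣ a' then (1 : ℝ) else 0)) :=
    Finset.sum_le_sum fun a _ => Finset.sum_le_sum fun a' _ => gB_gcd_le m hm a a'
  have h2 : ∑ a ∈ Icc (-m : ℤ) m, ∑ a' ∈ Icc (-m : ℤ) m,
      ∑ g ∈ m.divisors, (g : ℝ) * ((if (g : ℤ) ∣ a then (1 : ℝ) else 0) *
        (if (g : ℤ) ∣ a' then (1 : ℝ) else 0)) =
      ∑ g ∈ m.divisors, (g : ℝ) * ((∑ a ∈ Icc (-m : ℤ) m, (if (g : ℤ) ∣ a then (1 : ℝ) else 0)) *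
        (∑ a ∈ Icc (-m : ℤ) m, (if (g : ℤ) ∣ a then (1 : ℝ) else 0))) := by
    have e1 : ∀ a ∈ Icc (-m : ℤ) m, (∑ a' ∈ Icc (-m : ℤ) m,
      ∑ g ∈ m.divisors, (g : ℝ) * ((if (g : ℤ) ∣ a then (1 : ℝ) else 0) *
        (if (g : ℤ) ∣ a' then (1 : ℝ) else 0))) = ∑ g ∈ m.divisors, ∑ a' ∈ Icc (-m : ℤ) m,
        (g : ℝ) * ((if (g : ℤ) ∣ a then (1 : ℝ) else 0) *
        (if (g : ℤ) ∣ a' then (1 : ℝ) else 0)) := fun a _ => Finset.sum_comm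
    rw [Finset.sum_congr rfl e1, Finset.sum_comm]
    refine Finset.sum_congr rfl fun g _ => ?_
    rw [Finset.sum_mul_sum, Finset.mul_sum]
    refine Finset.sum_congr rfl fun a _ => ?_
    rw [Finset.mul_sum]
  have h3 : ∀ g ∈ m.divisors, (g : ℝ) * ((∑ a ∈ Icc (-m : ℤ) m,
      (if (g : ℤ) ∣ a then (1 : ℝ) else 0)) *
        (∑ a ∈ Icc (-m : ℤ) m, (if (g : ℤ) ∣ a then (1 : ℝ) else 0))) ≤
        9 * ((m : ℝ) / g) * m := by
    intro g hg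
    have hgm := (Nat.mem_divisors.1 hg).1
    have hg0 : 0 < g := Nat.pos_of_mem_divisors hg
    have hgR : (0 : ℝ) < g := by exact_mod_cast hg0
    have hb := gB_ind_sum m g hm hgm
    have hn : 0 ≤ ∑ a ∈ Icc (-m : ℤ) m, (if (g : ℤ) ∣ a then (1 : ℝ) else 0) :=
      Finset.sum_nonneg fun a _ => by positivity
    have h4 := mul_le_mul hb hb hn (by positivity)
    have h5 := mul_le_mul_of_nonneg_left h4 hgR.le
    refine h5.trans (le_of_eq ?_)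
    field_simp
    ring
  refine h1.trans ?_
  rw [h2]
  refine (Finset.sum_le_sum h3).trans (le_of_eq ?_)
  rw [Finset.mul_sum, Finset.sum_mul]

theorem gB_outer (T : ℕ) :
    ∑ m ∈ Icc 1 T, ∑ g ∈ m.divisors, (m : ℝ) / g ≤ 2 * (T : ℝ) ^ 2 := by
  have e1 : ∀ m ∈ Icc 1 T, (∑ g ∈ m.divisors, (m : ℝ) / g) =
      ∑ g ∈ Icc 1 T, if g ∣ m then (m : ℝ) / g else 0 := by
    intro m hm
    rw [Finset.mem_Icc] at hm
    rw [← Finset.sum_filter]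
    refine Finset.sum_congr ?_ fun _ _ => rfl
    ext g
    rw [Nat.mem_divisors, Finset.mem_filter, Finset.mem_Icc]
    constructor
    · rintro ⟨h1, h2⟩
      exact ⟨⟨Nat.pos_of_dvd_of_pos h1 (by omega), (Nat.le_of_dvd (by omega) h1).trans hm.2⟩, h1⟩
    · rintro ⟨h1, h2⟩
      exact ⟨h2, by omega⟩
  rw [Finset.sum_congr rfl e1, Finset.sum_comm]
  have e2 : ∀ g ∈ Icc 1 T, (∑ m ∈ Icc 1 T, if g ∣ m then (m : ℝ) / g else 0) ≤
      (T : ℝ) ^ 2 * ((g : ℝ) ^ 2)⁻¹ := by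
    intro g hg
    rw [Finset.mem_Icc] at hg
    have hgR : (0 : ℝ) < g := by exact_mod_cast hg.1
    rw [← Finset.sum_filter]
    have h1 : ∀ m ∈ (Icc 1 T).filter (fun m => g ∣ m), (m : ℝ) / g ≤ (T : ℝ) / g := by
      intro m hm
      rw [Finset.mem_filter, Finset.mem_Icc] at hm
      have : (m : ℝ) ≤ T := by exact_mod_cast hm.1.2
      exact div_le_div_of_nonneg_right this hgR.le
    have h2 := Finset.sum_le_card_nsmul _ _ _ h1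
    have h3 : ((Icc 1 T).filter (fun m => g ∣ m)).card = T / g := by
      have := Nat.Ioc_filter_dvd_card_eq_div T g
      rw [← this]
      rfl
    rw [h3, nsmul_eq_mul] at h2
    refine h2.trans ?_
    have h4 : ((T / g : ℕ) : ℝ) ≤ (T : ℝ) / g := Nat.cast_div_le
    have h5 : (0 : ℝ) ≤ (T : ℝ) / g := by positivity
    refine (mul_le_mul_of_nonneg_right h4 h5).trans (le_of_eq ?_)
    field_simp
  refine (Finset.sum_le_sum e2).trans ?_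
  rw [← Finset.mul_sum]
  have h6 := sum_Ioo_inv_sq_le (α := ℝ) 0 (T + 1)
  have h7 : Ioo 0 (T + 1) = Icc 1 T := by
    ext x
    rw [Finset.mem_Ioo, Finset.mem_Icc]
    omega
  rw [h7] at h6
  have h8 : (2 : ℝ) / ((0 : ℕ) + 1) = 2 := by norm_num
  have h9 : ∑ i ∈ Icc 1 T, ((i : ℝ) ^ 2)⁻¹ ≤ 2 := by
    refine h6.trans (le_of_eq ?_)
    norm_num
  nlinarith [sq_nonneg (T : ℝ)]

/-- `∑_{m ≤ T} (1/m) ∑_{|a|, |a'| ≤ m} gcd(a, a', m) ≤ 18 T^2` -/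
theorem gcd_sum (T : ℕ) :
    ∑ m ∈ Icc 1 T, (∑ a ∈ Icc (-m : ℤ) m, ∑ a' ∈ Icc (-m : ℤ) m,
      (Nat.gcd (Int.gcd a m) (Int.gcd a' m) : ℝ)) / (m : ℝ) ≤ 18 * (T : ℝ) ^ 2 := by
  have h1 : ∑ m ∈ Icc 1 T, (∑ a ∈ Icc (-m : ℤ) m, ∑ a' ∈ Icc (-m : ℤ) m,
      (Nat.gcd (Int.gcd a m) (Int.gcd a' m) : ℝ)) / (m : ℝ) ≤
      ∑ m ∈ Icc 1 T, 9 * ∑ g ∈ m.divisors, (m : ℝ) / g :=
    Finset.sum_le_sum fun m hm => gB_inner m (Finset.mem_Icc.1 hm).1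
  rw [← Finset.mul_sum] at h1
  have h2 := gB_outer T
  linarith

end VP054
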