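import Mathlib

/-! P054: the objects of the statement -/

namespace VP054

/-- the integer grid `{1, ..., t}^d` as a set of points of Euclidean space -/
def grid (d t : ℕ) : Set (EuclideanSpace ℝ (Fin d)) :=
  {x | ∀ i, ∃ k : ℕ, 1 ≤ k ∧ k ≤ t ∧ x i = (k : ℝ)}

/-- the number of distinct distances between distinct points of `P` -/
noncomputable def numDist {d : ℕ} (P : Finset (EuclideanSpace ℝ (Fin d))) : ℕ :=
  {r : ℝ | ∃ p ∈ P, ∃ q ∈ P, p ≠ q ∧ dist p q = r}.ncard

end VP054
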