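import Vale.Agent.P054.Total

/-! P054: additive energy of distances in a three-dimensional grid -/

namespace VP054

open Finset

/-- squared distance of integer triples -/
def sq3 (p q : ℤ × ℤ × ℤ) : ℤ := (p.1 - q.1) ^ 2 + (p.2.1 - q.2.1) ^ 2 + (p.2.2 - q.2.2) ^ 2

/-- pairs of orthogonal vectors in the box -/
noncomputable def Zs (T : ℕ) : Finset ((ℤ × ℤ × ℤ) × (ℤ × ℤ × ℤ)) :=
  (((Icc (-(T : ℤ)) T) ×ˢ (Icc (-(T : ℤ)) T) ×ˢ (Icc (-(T : ℤ)) T)) ×ˢ
    ((Icc (-(T : ℤ)) T) ×ˢ (Icc (-(T : ℤ)) T) ×ˢ (Icc (-(T : ℤ)) T))).filter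
    (fun w => w.1.1 * w.2.1 + w.1.2.1 * w.2.2.1 + w.1.2.2 * w.2.2.2 = 0)

theorem card_Zs {T : ℕ} (hT : 1 ≤ T) : (Zs T).card ≤ 1563 * T ^ 4 := by
  refine le_trans (le_of_eq ?_) (total hT)
  unfold Zs
  rw [card_filter, sum_product, sum_product]
  refine sum_congr rfl (fun x _ => ?_)
  rw [sum_product]
  refine sum_congr rfl (fun y _ => sum_congr rfl (fun z _ => ?_))
  unfold U
  rw [card_filter]

/-- quadruples with equal squared distances -/
def En (R : Finset (ℤ × ℤ × ℤ)) :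
    Finset (((ℤ × ℤ × ℤ) × (ℤ × ℤ × ℤ)) × ((ℤ × ℤ × ℤ) × (ℤ × ℤ × ℤ))) :=
  ((R ×ˢ R) ×ˢ (R ×ˢ R)).filter (fun w => sq3 w.1.1 w.1.2 = sq3 w.2.1 w.2.2)

theorem card_En {t : ℕ} (ht : 1 ≤ t) (R : Finset (ℤ × ℤ × ℤ))
    (hR : R ⊆ (Icc (1 : ℤ) t) ×ˢ (Icc (1 : ℤ) t) ×ˢ (Icc (1 : ℤ) t)) :
    (En R).card ≤ R.card ^ 2 * (25008 * t ^ 4) := by
  have h1 : (En R).card ≤ ((R ×ˢ R) ×ˢ Zs (2 * t)).card := by
    refine card_le_card_of_injOn (fun w => ((w.1.2, w.2.2),
      (((w.1.1.1 - w.1.2.1) - (w.2.1.1 - w.2.2.1),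
        (w.1.1.2.1 - w.1.2.2.1) - (w.2.1.2.1 - w.2.2.2.1),
        (w.1.1.2.2 - w.1.2.2.2) - (w.2.1.2.2 - w.2.2.2.2)),
       ((w.1.1.1 - w.1.2.1) + (w.2.1.1 - w.2.2.1),
        (w.1.1.2.1 - w.1.2.2.1) + (w.2.1.2.1 - w.2.2.2.1),
        (w.1.1.2.2 - w.1.2.2.2) + (w.2.1.2.2 - w.2.2.2.2))))) ?_ ?_
    · intro w hw
      rw [mem_coe, En, mem_filter, mem_product, mem_product, mem_product] at hw
      obtain ⟨⟨⟨hp, hq⟩, hr, hs⟩, he⟩ := hw
      have hp' := hR hp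
      have hq' := hR hq
      have hr' := hR hr
      have hs' := hR hs
      simp only [mem_product, mem_Icc] at hp' hq' hr' hs'
      rw [mem_coe, mem_product, mem_product]
      refine ⟨⟨hq, hs⟩, ?_⟩
      rw [Zs, mem_filter]
      refine ⟨?_, ?_⟩
      · simp only [mem_product, mem_Icc]
        push_cast
        refine ⟨⟨⟨?_, ?_⟩, ⟨?_, ?_⟩, ?_, ?_⟩, ⟨?_, ?_⟩, ⟨?_, ?_⟩, ?_, ?_⟩ <;> omega
      · simp only
        unfold sq3 at he
        linarith
    · intro w _ w' _ h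
      simp only [Prod.mk.injEq] at h
      obtain ⟨⟨h1, h2⟩, ⟨a1, a2, a3⟩, b1, b2, b3⟩ := h
      have g1 : w.1.2.1 = w'.1.2.1 := by rw [h1]
      have g2 : w.1.2.2.1 = w'.1.2.2.1 := by rw [h1]
      have g3 : w.1.2.2.2 = w'.1.2.2.2 := by rw [h1]
      have k1 : w.2.2.1 = w'.2.2.1 := by rw [h2]
      have k2 : w.2.2.2.1 = w'.2.2.2.1 := by rw [h2]
      have k3 : w.2.2.2.2 = w'.2.2.2.2 := by rw [h2]
      refine Prod.ext (Prod.ext (Prod.ext ?_ (Prod.ext ?_ ?_)) h1)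
        (Prod.ext (Prod.ext ?_ (Prod.ext ?_ ?_)) h2) <;> omega
  rw [card_product, card_product] at h1
  have h3 := card_Zs (T := 2 * t) (by omega)
  calc (En R).card ≤ R.card * R.card * (Zs (2 * t)).card := h1
    _ ≤ R.card * R.card * (1563 * (2 * t) ^ 4) := by gcongr
    _ = R.card ^ 2 * (25008 * t ^ 4) := by ring

/-- Cauchy Schwarz -/
theorem cauchy (R : Finset (ℤ × ℤ × ℤ)) :
    R.card ^ 4 ≤ ((R ×ˢ R).image (fun w => sq3 w.1 w.2)).card * (En R).card := by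
  obtain ⟨V, hV⟩ : ∃ V, V = (R ×ˢ R).image (fun w => sq3 w.1 w.2) := ⟨_, rfl⟩
  rw [← hV]
  have h1 : (R ×ˢ R).card = ∑ v ∈ V, ((R ×ˢ R).filter (fun w => sq3 w.1 w.2 = v)).card := by
    rw [hV]; exact card_eq_sum_card_image _ _
  have h2 : (En R).card = ∑ v ∈ V, ((En R).filter (fun w => sq3 w.1.1 w.1.2 = v)).card := by
    refine card_eq_sum_card_fiberwise (fun w hw => ?_)
    rw [mem_coe, En, mem_filter, mem_product] at hw
    rw [mem_coe, hV]
    exact mem_image_of_mem (fun w : (ℤ × ℤ × ℤ) × (ℤ × ℤ × ℤ) => sq3 w.1 w.2) hw.1.1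
  have h3 : ∀ v, ((En R).filter (fun w => sq3 w.1.1 w.1.2 = v)).card =
      (((R ×ˢ R).filter (fun w => sq3 w.1 w.2 = v)).card) ^ 2 := by
    intro v
    rw [sq, ← card_product]
    refine congrArg card ?_
    ext w
    simp only [En, mem_filter, mem_product]
    constructor
    · rintro ⟨⟨⟨a, b⟩, c⟩, e⟩
      exact ⟨⟨a, e⟩, b, c ▸ e⟩
    · rintro ⟨⟨a, e⟩, b, e'⟩
      exact ⟨⟨⟨a, b⟩, e.trans e'.symm⟩, e⟩
  simp only [h3] at h2
  have h4 := sq_sum_le_card_mul_sum_sq (s := V)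
    (f := fun v => ((R ×ˢ R).filter (fun w => sq3 w.1 w.2 = v)).card)
  rw [← h1, ← h2, card_product] at h4
  calc R.card ^ 4 = (R.card * R.card) ^ 2 := by ring
    _ ≤ _ := h4

/-- squared distance of integer vectors -/
def sqd {d : ℕ} (k l : Fin d → ℤ) : ℤ := ∑ i, (k i - l i) ^ 2

theorem core (m : ℕ) (t : ℕ) (ht : 1 ≤ t) (Q : Finset (Fin (3 + m) → ℤ))
    (hQ : ∀ k ∈ Q, ∀ i, 1 ≤ k i ∧ k i ≤ t) (h2 : 2 ≤ Q.card) :
    Q.card ^ 2 ≤ 50016 * (Q.offDiag.image (fun w => sqd w.1 w.2)).card * t ^ (2 * m + 4) := by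
  classical
  let κ : (Fin (3 + m) → ℤ) → (Fin m → ℤ) := fun k j => k (Fin.natAdd 3 j)
  let π : (Fin (3 + m) → ℤ) → ℤ × ℤ × ℤ := fun k =>
    (k (Fin.castAdd m 0), k (Fin.castAdd m 1), k (Fin.castAdd m 2))
  have himg : Q.image κ ⊆ Fintype.piFinset (fun _ : Fin m => Icc (1 : ℤ) t) := by
    intro c hc
    rw [mem_image] at hc
    obtain ⟨k, hk, rfl⟩ := hc
    rw [Fintype.mem_piFinset]
    intro j
    rw [mem_Icc]
    exact hQ k hk _
  have hcard : (Q.image κ).card ≤ t ^ m := by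
    refine (card_le_card himg).trans ?_
    rw [Fintype.card_piFinset]
    simp
  have hne : (Q.image κ).Nonempty := by
    rw [image_nonempty, ← card_pos]; omega
  obtain ⟨c, hc, hmax⟩ := exists_max_image (Q.image κ)
    (fun c => (Q.filter (fun k => κ k = c)).card) hne
  obtain ⟨S, hS⟩ : ∃ S, S = Q.filter (fun k => κ k = c) := ⟨_, rfl⟩
  have hQS : Q.card ≤ t ^ m * S.card := by
    rw [card_eq_sum_card_image κ Q]
    refine (sum_le_sum hmax).trans ?_
    rw [sum_const, smul_eq_mul, ← hS]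
    exact Nat.mul_le_mul_right _ hcard
  have hsq : ∀ k ∈ S, ∀ l ∈ S, sqd k l = sq3 (π k) (π l) := by
    intro k hk l hl
    rw [hS, mem_filter] at hk hl
    unfold sqd sq3
    rw [Fin.sum_univ_add]
    have h0 : ∀ j : Fin m, (k (Fin.natAdd 3 j) - l (Fin.natAdd 3 j)) ^ 2 = 0 := by
      intro j
      have : κ k j = κ l j := by rw [hk.2, hl.2]
      simp only [κ] at this
      rw [this]; ring
    rw [sum_congr rfl (fun j _ => h0 j), Fin.sum_univ_three]
    simp [π]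
  have hinj : Set.InjOn π S := by
    intro k hk l hl h
    have hk' := hk
    have hl' := hl
    rw [mem_coe, hS, mem_filter] at hk' hl'
    funext i
    refine Fin.addCases (fun i => ?_) (fun j => ?_) i
    · simp only [π, Prod.mk.injEq] at h
      fin_cases i
      · exact h.1
      · exact h.2.1
      · exact h.2.2
    · have : κ k j = κ l j := by rw [hk'.2, hl'.2]
      exact this
  have hR : S.image π ⊆ (Icc (1 : ℤ) t) ×ˢ (Icc (1 : ℤ) t) ×ˢ (Icc (1 : ℤ) t) := by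
    intro p hp
    rw [mem_image] at hp
    obtain ⟨k, hk, rfl⟩ := hp
    rw [hS, mem_filter] at hk
    simp only [mem_product, mem_Icc, π]
    exact ⟨hQ k hk.1 _, hQ k hk.1 _, hQ k hk.1 _⟩
  have h3 := cauchy (S.image π)
  have h4 := card_En ht (S.image π) hR
  rw [card_image_of_injOn hinj] at h3
  have h5 : ((S.image π ×ˢ S.image π).image (fun w => sq3 w.1 w.2)).card ≤
      2 * (Q.offDiag.image (fun w => sqd w.1 w.2)).card := by
    have hsub : (S.image π ×ˢ S.image π).image (fun w => sq3 w.1 w.2) ⊆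
        {0} ∪ Q.offDiag.image (fun w => sqd w.1 w.2) := by
      intro v hv
      rw [mem_image] at hv
      obtain ⟨w, hw, rfl⟩ := hv
      rw [mem_product, mem_image, mem_image] at hw
      obtain ⟨⟨k, hk, hk1⟩, l, hl, hl1⟩ := hw
      rw [← hk1, ← hl1, ← hsq k hk l hl, mem_union]
      by_cases hkl : k = l
      · left
        rw [hkl, mem_singleton]
        unfold sqd
        simp
      · right
        rw [hS, mem_filter] at hk hl
        exact mem_image_of_mem (fun w : (Fin (3 + m) → ℤ) × (Fin (3 + m) → ℤ) => sqd w.1 w.2)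
          (show (k, l) ∈ Q.offDiag from mem_offDiag.mpr ⟨hk.1, hl.1, hkl⟩)
    have h6 := (card_le_card hsub).trans (card_union_le _ _)
    rw [card_singleton] at h6
    have h7 : 0 < (Q.offDiag.image (fun w => sqd w.1 w.2)).card := by
      rw [card_pos, image_nonempty, ← card_pos, offDiag_card]
      have : 2 * Q.card ≤ Q.card * Q.card := Nat.mul_le_mul_right _ h2
      omega
    omega
  have hSpos : 0 < S.card := by
    rcases Nat.eq_zero_or_pos S.card with h0 | h0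
    · rw [h0, mul_zero] at hQS; omega
    · exact h0
  have h8 : S.card ^ 2 ≤ (2 * (Q.offDiag.image (fun w => sqd w.1 w.2)).card) *
      (25008 * t ^ 4) := by
    have h9 : S.card ^ 2 * S.card ^ 2 ≤ S.card ^ 2 *
        ((2 * (Q.offDiag.image (fun w => sqd w.1 w.2)).card) * (25008 * t ^ 4)) := by
      rw [card_image_of_injOn hinj] at h4
      calc S.card ^ 2 * S.card ^ 2 = S.card ^ 4 := by ring
        _ ≤ _ := h3
        _ ≤ (2 * (Q.offDiag.image (fun w => sqd w.1 w.2)).card) *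
            (S.card ^ 2 * (25008 * t ^ 4)) := Nat.mul_le_mul h5 h4
        _ = _ := by ring
    exact Nat.le_of_mul_le_mul_left h9 (by positivity)
  calc Q.card ^ 2 ≤ (t ^ m * S.card) ^ 2 := Nat.pow_le_pow_left hQS 2
    _ = t ^ (2 * m) * S.card ^ 2 := by ring
    _ ≤ t ^ (2 * m) * ((2 * (Q.offDiag.image (fun w => sqd w.1 w.2)).card) *
        (25008 * t ^ 4)) := Nat.mul_le_mul_left _ h8
    _ = 50016 * (Q.offDiag.image (fun w => sqd w.1 w.2)).card * t ^ (2 * m + 4) := by ring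

end VP054
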