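import Vale.Agent.P054.Energy
import Vale.Agent.P054.Defs

/-! P054: passage to Euclidean space -/

namespace VP054

open Finset

theorem dist_finite {d : ℕ} (P : Finset (EuclideanSpace ℝ (Fin d))) :
    {r : ℝ | ∃ p ∈ P, ∃ q ∈ P, p ≠ q ∧ dist p q = r}.Finite := by
  refine ((P.finite_toSet.prod P.finite_toSet).image
    (fun w : EuclideanSpace ℝ (Fin d) × EuclideanSpace ℝ (Fin d) => dist w.1 w.2)).subset ?_
  rintro r ⟨p, hp, q, hq, _, rfl⟩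
  exact ⟨(p, q), ⟨hp, hq⟩, rfl⟩

theorem sqd_nonneg {d : ℕ} (k l : Fin d → ℤ) : 0 ≤ sqd k l :=
  sum_nonneg (fun _ _ => sq_nonneg _)

theorem numDist_ge {d : ℕ} (P S : Finset (EuclideanSpace ℝ (Fin d))) (hSP : S ⊆ P)
    (k : EuclideanSpace ℝ (Fin d) → (Fin d → ℤ)) (lam : ℝ) (hlam : 0 < lam)
    (hdist : ∀ p ∈ S, ∀ q ∈ S, dist p q = lam * Real.sqrt ((sqd (k p) (k q) : ℤ) : ℝ)) :
    ((S.image k).offDiag.image (fun w => sqd w.1 w.2)).card ≤ numDist P := by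
  obtain ⟨V, hV⟩ : ∃ V, V = (S.image k).offDiag.image (fun w => sqd w.1 w.2) := ⟨_, rfl⟩
  rw [← hV]
  have hmem : ∀ v ∈ V, 0 ≤ v ∧ ∃ p ∈ P, ∃ q ∈ P, p ≠ q ∧ dist p q = lam * Real.sqrt (v : ℝ) := by
    intro v hv
    rw [hV, mem_image] at hv
    obtain ⟨w, hw, rfl⟩ := hv
    rw [mem_offDiag, mem_image, mem_image] at hw
    obtain ⟨⟨p, hp, hp1⟩, ⟨q, hq, hq1⟩, hne⟩ := hw
    refine ⟨sqd_nonneg _ _, p, hSP hp, q, hSP hq, ?_, ?_⟩
    · rintro rfl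
      exact hne (hp1.symm.trans hq1)
    · rw [hdist p hp q hq, hp1, hq1]
  have h1 : (V : Set ℤ).ncard ≤ {r : ℝ | ∃ p ∈ P, ∃ q ∈ P, p ≠ q ∧ dist p q = r}.ncard := by
    refine Set.ncard_le_ncard_of_injOn (fun v : ℤ => lam * Real.sqrt (v : ℝ)) ?_ ?_
      (dist_finite P)
    · intro v hv
      exact (hmem v hv).2
    · intro v hv v' hv' h
      have h1 := mul_left_cancel₀ hlam.ne' h
      have a1 : (0 : ℝ) ≤ v := by exact_mod_cast (hmem v hv).1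
      have a2 : (0 : ℝ) ≤ v' := by exact_mod_cast (hmem v' hv').1
      exact_mod_cast (Real.sqrt_inj a1 a2).mp h1
  rw [Set.ncard_coe_finset] at h1
  exact h1

theorem main {m t : ℕ}
    (ρ : EuclideanSpace ℝ (Fin (3 + m)) → EuclideanSpace ℝ (Fin (3 + m))) (lam : ℝ)
    (hlam : 0 < lam) (hρ : ∀ x y, dist (ρ x) (ρ y) = lam * dist x y)
    (P S : Finset (EuclideanSpace ℝ (Fin (3 + m)))) (hSP : S ⊆ P)
    (hS : ∀ p ∈ S, ∃ x ∈ grid (3 + m) t, ρ x = p) (h2 : 2 ≤ S.card) :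
    1 ≤ t ∧ S.card ^ 2 ≤ 50016 * numDist P * t ^ (2 * m + 4) := by
  have hex : ∀ p : EuclideanSpace ℝ (Fin (3 + m)), ∃ k : Fin (3 + m) → ℤ, p ∈ S →
      (∀ i, 1 ≤ k i ∧ k i ≤ t) ∧ ρ (WithLp.toLp 2 (fun i => (k i : ℝ))) = p := by
    intro p
    by_cases hp : p ∈ S
    · obtain ⟨x, hx, hxp⟩ := hS p hp
      choose k hk1 hk2 hk3 using hx
      refine ⟨fun i => (k i : ℤ), fun _ => ⟨fun i => ⟨?_, ?_⟩, ?_⟩⟩
      · show (1 : ℤ) ≤ ((k i : ℕ) : ℤ)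
        exact_mod_cast hk1 i
      · show ((k i : ℕ) : ℤ) ≤ (t : ℤ)
        exact_mod_cast hk2 i
      · rw [← hxp]
        congr 1
        ext i
        simp [hk3 i]
    · exact ⟨fun _ => 0, fun h => absurd h hp⟩
  choose k hk using hex
  have hinj : Set.InjOn k S := by
    intro p hp q hq h
    rw [← (hk p hp).2, ← (hk q hq).2, h]
  have hdist : ∀ p ∈ S, ∀ q ∈ S, dist p q = lam * Real.sqrt ((sqd (k p) (k q) : ℤ) : ℝ) := by
    intro p hp q hq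
    have h1 : dist p q = dist (ρ (WithLp.toLp 2 (fun i => (k p i : ℝ))))
        (ρ (WithLp.toLp 2 (fun i => (k q i : ℝ)))) := by
      rw [(hk p hp).2, (hk q hq).2]
    rw [h1, hρ, EuclideanSpace.dist_eq]
    congr 2
    unfold sqd
    push_cast
    refine sum_congr rfl (fun i _ => ?_)
    rw [Real.dist_eq, sq_abs]
  have ht : 1 ≤ t := by
    obtain ⟨p, hp⟩ : S.Nonempty := card_pos.mp (by omega)
    have := (hk p hp).1 ⟨0, by omega⟩
    omega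
  have hQ : ∀ l ∈ S.image k, ∀ i, 1 ≤ l i ∧ l i ≤ t := by
    intro l hl
    rw [mem_image] at hl
    obtain ⟨p, hp, rfl⟩ := hl
    exact (hk p hp).1
  have hcore := core m t ht (S.image k) hQ (by rw [card_image_of_injOn hinj]; exact h2)
  rw [card_image_of_injOn hinj] at hcore
  refine ⟨ht, hcore.trans ?_⟩
  exact Nat.mul_le_mul_right _ (Nat.mul_le_mul_left _ (numDist_ge P S hSP k lam hlam hdist))

end VP054
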