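import Vale.Agent.P054.Count

/-! P054: the total number of solutions of `a · b = 0` in a box -/

namespace VP054

open Finset

theorem sum_union_le' (f : ℤ → ℕ) (s t : Finset ℤ) :
    ∑ x ∈ s ∪ t, f x ≤ ∑ x ∈ s, f x + ∑ x ∈ t, f x := by
  have := sum_union_inter (s₁ := s) (s₂ := t) (f := f)
  omega

theorem card_mult {q e : ℕ} (he : e ∣ q) (hq : 0 < q) :
    ((Icc (-(q : ℤ)) q).filter (fun x => (e : ℤ) ∣ x)).card ≤ 4 * (q / e) := by
  have he0 : 0 < e := Nat.pos_of_dvd_of_pos he hq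
  have h := card_class (T := q) (k := e) he0 (Nat.le_of_dvd hq he)
    ((Icc (-(q : ℤ)) q).filter (fun x => (e : ℤ) ∣ x))
    (fun x hx => by rw [mem_filter, mem_Icc] at hx; exact hx.1)
    (fun x hx y hy => by rw [mem_filter] at hx hy; exact dvd_sub hx.2 hy.2)
  obtain ⟨k, hk⟩ := he
  subst hk
  rw [Nat.mul_div_cancel_left _ he0]
  have : e * ((Icc (-((e * k : ℕ) : ℤ)) ((e * k : ℕ) : ℤ)).filter (fun x => (e : ℤ) ∣ x)).card ≤
      e * (4 * k) := by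
    calc _ ≤ 4 * (e * k) := h
      _ = e * (4 * k) := by ring
  exact Nat.le_of_mul_le_mul_left this he0

theorem sum_gcd {q : ℕ} (hq : 0 < q) (z : ℤ) (hz : z.natAbs = q) :
    ∑ x ∈ Icc (-(q : ℤ)) q, ∑ y ∈ Icc (-(q : ℤ)) q, Int.gcd x (Int.gcd y z) ≤
      16 * q * ∑ e ∈ q.divisors, e := by
  have hle : ∀ x y : ℤ, Int.gcd x (Int.gcd y z) ≤
      ∑ e ∈ q.divisors, e * ((if (e : ℤ) ∣ x then 1 else 0) * (if (e : ℤ) ∣ y then 1 else 0)) := by
    intro x y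
    have h1 : ((Int.gcd x (Int.gcd y z) : ℕ) : ℤ) ∣ x := Int.gcd_dvd_left _ _
    have h2 : ((Int.gcd x (Int.gcd y z) : ℕ) : ℤ) ∣ ((Int.gcd y z : ℕ) : ℤ) :=
      Int.gcd_dvd_right _ _
    have h3 : ((Int.gcd x (Int.gcd y z) : ℕ) : ℤ) ∣ y := h2.trans (Int.gcd_dvd_left _ _)
    have h4 : ((Int.gcd x (Int.gcd y z) : ℕ) : ℤ) ∣ z := h2.trans (Int.gcd_dvd_right _ _)
    have h5 : Int.gcd x (Int.gcd y z) ∈ q.divisors := by
      rw [Nat.mem_divisors]
      refine ⟨?_, hq.ne'⟩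
      rw [← hz]
      exact Int.natCast_dvd.mp h4
    have h6 := single_le_sum (f := fun e : ℕ =>
      e * ((if (e : ℤ) ∣ x then 1 else 0) * (if (e : ℤ) ∣ y then 1 else 0)))
      (fun i _ => Nat.zero_le _) h5
    simp only [h1, h3, if_true, mul_one] at h6
    exact h6
  calc ∑ x ∈ Icc (-(q : ℤ)) q, ∑ y ∈ Icc (-(q : ℤ)) q, Int.gcd x (Int.gcd y z)
      ≤ ∑ x ∈ Icc (-(q : ℤ)) q, ∑ y ∈ Icc (-(q : ℤ)) q, ∑ e ∈ q.divisors,
          e * ((if (e : ℤ) ∣ x then 1 else 0) * (if (e : ℤ) ∣ y then 1 else 0)) :=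
        sum_le_sum (fun x _ => sum_le_sum (fun y _ => hle x y))
    _ = ∑ e ∈ q.divisors, e * (((Icc (-(q : ℤ)) q).filter (fun x => (e : ℤ) ∣ x)).card *
          ((Icc (-(q : ℤ)) q).filter (fun x => (e : ℤ) ∣ x)).card) := by
        have h1 : ∀ x : ℤ, ∑ y ∈ Icc (-(q : ℤ)) q, ∑ e ∈ q.divisors,
            e * ((if (e : ℤ) ∣ x then 1 else 0) * (if (e : ℤ) ∣ y then 1 else 0)) =
            ∑ e ∈ q.divisors, ∑ y ∈ Icc (-(q : ℤ)) q,
            e * ((if (e : ℤ) ∣ x then 1 else 0) * (if (e : ℤ) ∣ y then 1 else 0)) := by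
          intro x; exact sum_comm
        simp only [h1]
        rw [sum_comm]
        refine sum_congr rfl (fun e _ => ?_)
        rw [card_filter, sum_mul_sum, mul_sum]
        refine sum_congr rfl (fun x _ => ?_)
        rw [mul_sum]
    _ ≤ ∑ e ∈ q.divisors, 16 * q * (q / e) := by
        refine sum_le_sum (fun e he => ?_)
        have he' := Nat.dvd_of_mem_divisors he
        have hc := card_mult he' hq
        calc e * (((Icc (-(q : ℤ)) q).filter (fun x => (e : ℤ) ∣ x)).card *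
              ((Icc (-(q : ℤ)) q).filter (fun x => (e : ℤ) ∣ x)).card)
            ≤ e * ((4 * (q / e)) * (4 * (q / e))) := by gcongr
          _ = 16 * (e * (q / e)) * (q / e) := by ring
          _ = 16 * q * (q / e) := by rw [Nat.mul_div_cancel' he']
    _ = 16 * q * ∑ e ∈ q.divisors, e := by
        rw [← mul_sum, Nat.sum_div_divisors q (fun e => e)]

theorem sum_sigma (T : ℕ) : ∑ q ∈ Icc 1 T, ∑ e ∈ q.divisors, e ≤ T ^ 2 := by
  have h1 : ∀ q ∈ Icc 1 T, ∑ e ∈ q.divisors, e ≤ ∑ e ∈ Icc 1 T, (if e ∣ q then e else 0) := by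
    intro q hq
    rw [mem_Icc] at hq
    rw [← sum_filter]
    refine sum_le_sum_of_subset (fun e he => ?_)
    rw [Nat.mem_divisors] at he
    rw [mem_filter, mem_Icc]
    exact ⟨⟨Nat.pos_of_dvd_of_pos he.1 hq.1, (Nat.le_of_dvd hq.1 he.1).trans hq.2⟩, he.1⟩
  refine (sum_le_sum h1).trans ?_
  rw [sum_comm]
  have h2 : ∀ e ∈ Icc 1 T, ∑ q ∈ Icc 1 T, (if e ∣ q then e else 0) ≤ T := by
    intro e he
    rw [mem_Icc] at he
    rw [← sum_filter, sum_const, smul_eq_mul]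
    have h3 : (Icc 1 T).filter (fun q => e ∣ q) ⊆ (Icc 1 (T / e)).image (fun k => e * k) := by
      intro q hq
      rw [mem_filter, mem_Icc] at hq
      obtain ⟨⟨q1, q2⟩, k, rfl⟩ := hq
      rw [mem_image]
      refine ⟨k, ?_, rfl⟩
      rw [mem_Icc]
      refine ⟨Nat.pos_of_ne_zero (by rintro rfl; omega), ?_⟩
      rw [Nat.le_div_iff_mul_le he.1]
      rw [mul_comm]; exact q2
    have h4 : ((Icc 1 T).filter (fun q => e ∣ q)).card ≤ T / e := by
      refine (card_le_card h3).trans (card_image_le.trans ?_)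
      simp
    calc _ ≤ T / e * e := Nat.mul_le_mul_right _ h4
      _ ≤ T := Nat.div_mul_le_self T e
  refine (sum_le_sum h2).trans ?_
  simp [sq]

theorem sum_U {T : ℕ} {z : ℤ} (hz : z ≠ 0) (hzT : z.natAbs ≤ T) :
    ∑ x ∈ Icc (-(z.natAbs : ℤ)) z.natAbs, ∑ y ∈ Icc (-(z.natAbs : ℤ)) z.natAbs, U T x y z ≤
      256 * T ^ 2 * ∑ e ∈ (z.natAbs).divisors, e := by
  have hz0 : 0 < z.natAbs := Int.natAbs_pos.mpr hz
  refine Nat.le_of_mul_le_mul_left ?_ hz0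
  calc z.natAbs * ∑ x ∈ Icc (-(z.natAbs : ℤ)) z.natAbs, ∑ y ∈ Icc (-(z.natAbs : ℤ)) z.natAbs,
        U T x y z
      = ∑ x ∈ Icc (-(z.natAbs : ℤ)) z.natAbs, ∑ y ∈ Icc (-(z.natAbs : ℤ)) z.natAbs,
        z.natAbs * U T x y z := by
        rw [mul_sum]
        exact sum_congr rfl (fun x _ => mul_sum _ _ _)
    _ ≤ ∑ x ∈ Icc (-(z.natAbs : ℤ)) z.natAbs, ∑ y ∈ Icc (-(z.natAbs : ℤ)) z.natAbs,
        16 * T ^ 2 * Int.gcd x (Int.gcd y z) := by
        refine sum_le_sum (fun x _ => sum_le_sum (fun y _ => ?_))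
        exact (Nat.mul_le_mul_left _ (U_le_W hz)).trans (card_W hz hzT)
    _ = 16 * T ^ 2 * ∑ x ∈ Icc (-(z.natAbs : ℤ)) z.natAbs, ∑ y ∈ Icc (-(z.natAbs : ℤ)) z.natAbs,
        Int.gcd x (Int.gcd y z) := by
        rw [mul_sum]
        exact sum_congr rfl (fun x _ => (mul_sum _ _ _).symm)
    _ ≤ 16 * T ^ 2 * (16 * z.natAbs * ∑ e ∈ (z.natAbs).divisors, e) :=
        Nat.mul_le_mul_left _ (sum_gcd hz0 z rfl)
    _ = z.natAbs * (256 * T ^ 2 * ∑ e ∈ (z.natAbs).divisors, e) := by ring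

theorem U_swap (T : ℕ) (x y z : ℤ) : U T x y z ≤ U T x z y := by
  unfold U
  refine card_le_card_of_injOn (fun b => (b.1, (b.2.2, b.2.1))) ?_ ?_
  · intro b hb
    rw [mem_coe, mem_filter, mem_product, mem_product] at hb ⊢
    exact ⟨⟨hb.1.1, hb.1.2.2, hb.1.2.1⟩, by simp only; linarith [hb.2]⟩
  · intro b _ b' _ h
    simp only [Prod.mk.injEq] at h
    exact Prod.ext h.1 (Prod.ext h.2.2 h.2.1)

theorem U_rot (T : ℕ) (x y z : ℤ) : U T x y z ≤ U T y z x := by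
  unfold U
  refine card_le_card_of_injOn (fun b => (b.2.1, (b.2.2, b.1))) ?_ ?_
  · intro b hb
    rw [mem_coe, mem_filter, mem_product, mem_product] at hb ⊢
    exact ⟨⟨hb.1.2.1, hb.1.2.2, hb.1.1⟩, by simp only; linarith [hb.2]⟩
  · intro b _ b' _ h
    simp only [Prod.mk.injEq] at h
    exact Prod.ext h.2.2 (Prod.ext h.1 h.2.1)

/-- the contribution in which the third coordinate is the largest -/
noncomputable def UM (T : ℕ) (x y z : ℤ) : ℕ :=
  if z ≠ 0 then (if x ∈ Icc (-(z.natAbs : ℤ)) z.natAbs then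
    (if y ∈ Icc (-(z.natAbs : ℤ)) z.natAbs then U T x y z else 0) else 0) else 0

theorem U_split (T : ℕ) (x y z : ℤ) :
    U T x y z ≤ (if x = 0 then (if y = 0 then (if z = 0 then U T 0 0 0 else 0) else 0) else 0) +
      UM T x y z + UM T x z y + UM T y z x := by
  have key : (x = 0 ∧ y = 0 ∧ z = 0) ∨ (z ≠ 0 ∧ x.natAbs ≤ z.natAbs ∧ y.natAbs ≤ z.natAbs) ∨
      (y ≠ 0 ∧ x.natAbs ≤ y.natAbs ∧ z.natAbs ≤ y.natAbs) ∨
      (x ≠ 0 ∧ y.natAbs ≤ x.natAbs ∧ z.natAbs ≤ x.natAbs) := by omega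
  have hm : ∀ u v : ℤ, u.natAbs ≤ v.natAbs → u ∈ Icc (-(v.natAbs : ℤ)) v.natAbs := by
    intro u v h
    rw [mem_Icc]; omega
  rcases key with ⟨rfl, rfl, rfl⟩ | ⟨h0, h1, h2⟩ | ⟨h0, h1, h2⟩ | ⟨h0, h1, h2⟩
  · simp only [if_true]; omega
  · have : UM T x y z = U T x y z := by
      unfold UM
      rw [if_pos h0, if_pos (hm _ _ h1), if_pos (hm _ _ h2)]
    omega
  · have : UM T x z y = U T x z y := by
      unfold UM
      rw [if_pos h0, if_pos (hm _ _ h1), if_pos (hm _ _ h2)]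
    have := U_swap T x y z
    omega
  · have : UM T y z x = U T y z x := by
      unfold UM
      rw [if_pos h0, if_pos (hm _ _ h1), if_pos (hm _ _ h2)]
    have := U_rot T x y z
    omega

theorem sum_UM (T : ℕ) :
    ∑ z ∈ Icc (-(T : ℤ)) T, ∑ x ∈ Icc (-(T : ℤ)) T, ∑ y ∈ Icc (-(T : ℤ)) T, UM T x y z ≤
      512 * T ^ 4 := by
  have h1 : ∀ z ∈ Icc (-(T : ℤ)) T, ∑ x ∈ Icc (-(T : ℤ)) T, ∑ y ∈ Icc (-(T : ℤ)) T, UM T x y z ≤
      256 * T ^ 2 * ∑ e ∈ (z.natAbs).divisors, e := by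
    intro z hz
    rw [mem_Icc] at hz
    by_cases hz0 : z = 0
    · subst hz0
      simp [UM]
    · refine le_trans ?_ (sum_U hz0 (by omega))
      have h2 : ∀ x, ∑ y ∈ Icc (-(T : ℤ)) T, UM T x y z =
          if x ∈ Icc (-(z.natAbs : ℤ)) z.natAbs then
            ∑ y ∈ Icc (-(T : ℤ)) T ∩ Icc (-(z.natAbs : ℤ)) z.natAbs, U T x y z else 0 := by
        intro x
        simp only [UM, ne_eq, hz0, not_false_eq_true, if_true]
        split_ifs with hx
        · rw [sum_ite_mem]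
        · simp
      simp only [h2]
      rw [sum_ite_mem]
      refine (sum_le_sum_of_subset inter_subset_right).trans ?_
      exact sum_le_sum (fun x _ => sum_le_sum_of_subset inter_subset_right)
  refine (sum_le_sum h1).trans ?_
  rw [← mul_sum]
  have h3 : ∑ z ∈ Icc (-(T : ℤ)) T, ∑ e ∈ (z.natAbs).divisors, e ≤
      2 * ∑ q ∈ Icc 1 T, ∑ e ∈ q.divisors, e := by
    have hsub : Icc (-(T : ℤ)) T ⊆ {0} ∪ ((Icc 1 T).image (fun q : ℕ => (q : ℤ)) ∪
        (Icc 1 T).image (fun q : ℕ => -(q : ℤ))) := by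
      intro z hz
      rw [mem_Icc] at hz
      simp only [mem_union, mem_singleton, mem_image, mem_Icc]
      by_cases h0 : z = 0
      · exact Or.inl h0
      · right
        rcases lt_or_ge 0 z with h | h
        · exact Or.inl ⟨z.natAbs, by omega, by omega⟩
        · exact Or.inr ⟨z.natAbs, by omega, by omega⟩
    refine (sum_le_sum_of_subset hsub).trans ?_
    refine (sum_union_le' _ _ _).trans ?_
    have a1 : ∑ z ∈ ({0} : Finset ℤ), ∑ e ∈ (z.natAbs).divisors, e = 0 := by simp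
    rw [a1, zero_add]
    refine (sum_union_le' _ _ _).trans ?_
    have a2 : ∑ z ∈ (Icc 1 T).image (fun q : ℕ => (q : ℤ)), ∑ e ∈ (z.natAbs).divisors, e =
        ∑ q ∈ Icc 1 T, ∑ e ∈ q.divisors, e := by
      rw [sum_image (fun a _ b _ h => by exact_mod_cast h)]
      exact sum_congr rfl (fun q _ => by simp)
    have a3 : ∑ z ∈ (Icc 1 T).image (fun q : ℕ => -(q : ℤ)), ∑ e ∈ (z.natAbs).divisors, e =
        ∑ q ∈ Icc 1 T, ∑ e ∈ q.divisors, e := by
      rw [sum_image (fun a _ b _ h => by simpa using h)]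
      exact sum_congr rfl (fun q _ => by simp)
    rw [a2, a3]
    omega
  calc 256 * T ^ 2 * ∑ z ∈ Icc (-(T : ℤ)) T, ∑ e ∈ (z.natAbs).divisors, e
      ≤ 256 * T ^ 2 * (2 * T ^ 2) := by
        refine Nat.mul_le_mul_left _ (h3.trans ?_)
        exact Nat.mul_le_mul_left _ (sum_sigma T)
    _ = 512 * T ^ 4 := by ring

/-- the number of pairs `(a, b)` of vectors in the box with `a · b = 0` -/
theorem total {T : ℕ} (hT : 1 ≤ T) :
    ∑ x ∈ Icc (-(T : ℤ)) T, ∑ y ∈ Icc (-(T : ℤ)) T, ∑ z ∈ Icc (-(T : ℤ)) T, U T x y z ≤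
      1563 * T ^ 4 := by
  have h1 := sum_le_sum (s := Icc (-(T : ℤ)) T) (fun x _ => sum_le_sum (s := Icc (-(T : ℤ)) T)
    (fun y _ => sum_le_sum (s := Icc (-(T : ℤ)) T) (fun z _ => U_split T x y z)))
  refine h1.trans ?_
  simp only [sum_add_distrib]
  have e1 : ∑ x ∈ Icc (-(T : ℤ)) T, ∑ y ∈ Icc (-(T : ℤ)) T, ∑ z ∈ Icc (-(T : ℤ)) T, UM T x y z ≤
      512 * T ^ 4 := by
    refine le_trans (le_of_eq ?_) (sum_UM T)
    have : ∀ x, ∑ y ∈ Icc (-(T : ℤ)) T, ∑ z ∈ Icc (-(T : ℤ)) T, UM T x y z =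
        ∑ z ∈ Icc (-(T : ℤ)) T, ∑ y ∈ Icc (-(T : ℤ)) T, UM T x y z := fun x => sum_comm
    simp only [this]
    exact sum_comm
  have e2 : ∑ x ∈ Icc (-(T : ℤ)) T, ∑ y ∈ Icc (-(T : ℤ)) T, ∑ z ∈ Icc (-(T : ℤ)) T, UM T x z y ≤
      512 * T ^ 4 := by
    refine le_trans (le_of_eq ?_) (sum_UM T)
    exact sum_comm
  have e3 : ∑ x ∈ Icc (-(T : ℤ)) T, ∑ y ∈ Icc (-(T : ℤ)) T, ∑ z ∈ Icc (-(T : ℤ)) T, UM T y z x ≤
      512 * T ^ 4 := sum_UM T
  have e0 : ∑ x ∈ Icc (-(T : ℤ)) T, ∑ y ∈ Icc (-(T : ℤ)) T, ∑ z ∈ Icc (-(T : ℤ)) T,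
      (if x = 0 then (if y = 0 then (if z = 0 then U T 0 0 0 else 0) else 0) else 0) ≤
      27 * T ^ 4 := by
    have hU : U T 0 0 0 ≤ 27 * T ^ 4 := by
      unfold U
      refine (card_filter_le _ _).trans ?_
      rw [card_product, card_product, Int.card_Icc]
      have : ((T : ℤ) + 1 - -(T : ℤ)).toNat = 2 * T + 1 := by omega
      rw [this]
      calc (2 * T + 1) * ((2 * T + 1) * (2 * T + 1)) ≤ (3 * T) * ((3 * T) * (3 * T)) := by
            gcongr <;> omega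
        _ = 27 * T ^ 3 := by ring
        _ ≤ 27 * T ^ 4 := by
            refine Nat.mul_le_mul_left _ (Nat.pow_le_pow_right hT (by omega))
    have h0 : (0 : ℤ) ∈ Icc (-(T : ℤ)) T := by rw [mem_Icc]; omega
    refine le_trans (le_of_eq ?_) hU
    rw [sum_eq_single_of_mem 0 h0, sum_eq_single_of_mem 0 h0, sum_eq_single_of_mem 0 h0]
    · simp
    · intro z _ hz; simp [hz]
    · intro y _ hy; simp [hy]
    · intro x _ hx; simp [hx]
  omega

end VP054
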